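import Vale.Agent.Lib.P054.Grid

/-!
# P054: pinned distances in arbitrary subsets of the integer grid, every dimension `d ≥ 3`

Let `d = k + 3 ≥ 3`, `t ≥ 1`, and let `P` be any set of points of the integer grid
`{0, 1, …, t}^d`.  Then for every point `p` of `P` the number `D` of distinct distances from `p`
to the other points of `P` satisfies `(|P| - 1)² ≤ 8208 · 9^(d - 3) · t^(2d - 2) · D`.
-/

namespace Vale.Agent.Results.P054.DenseGridPinned

theorem result (k t : ℕ) (ht : 1 ≤ t) (P : Finset (EuclideanSpace ℝ (Fin (k + 3))))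
    (hgrid : ∀ q ∈ P, ∀ i, ∃ m : ℕ, m ≤ t ∧ q i = (m : ℝ))
    (p : EuclideanSpace ℝ (Fin (k + 3))) (hp : p ∈ P) :
    (P.card - 1) ^ 2 ≤
      8208 * 9 ^ k * t ^ (2 * k + 4) * ((P.erase p).image (fun q => dist p q)).card :=
  Vale.Agent.Lib.P054.grid_pinned k t ht P hgrid p hp

end Vale.Agent.Results.P054.DenseGridPinned
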