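import Vale.Agent.Lib.P054.GridDense
import Vale.Agent.Lib.P054.Hyperplane

/-!
# P054: the conjectured bound for two classes of point sets, in one statement

First part (dense subsets of the integer grid, every dimension `d = k + 3 ≥ 3`).  Let `t ≥ 1`,
`0 < δ ≤ 1`, and let `P` be a set of `n ≥ 2` points of the integer grid `{1, …, t}^d` with
`n ≥ δ t^d`.  Then every point of `P` has at least `δ² n^(2/d) / (32832 · 9^(d - 3))` distinct
distances to the other points of `P`; in particular `P` determines at least that many distinct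
distances.

Second part (few points on every hyperplane).  Let `d ≥ 2`, `K ≥ 1` and let `P ⊆ ℝᵈ` be a set of
`n ≥ 2` points such that every affine hyperplane contains at most `K n^(1 - 2/d)` points of `P`.
Then `P` determines at least `n^(2/d) / (4K)` distinct distances.
-/

namespace Vale.Agent.Results.P054.GridAndSparseHyperplanes

theorem result :
    (∀ (k t : ℕ), 1 ≤ t → ∀ δ : ℝ, 0 < δ → δ ≤ 1 →
      ∀ P : Finset (EuclideanSpace ℝ (Fin (k + 3))), 2 ≤ P.card →
      (∀ q ∈ P, ∀ i, ∃ m : ℕ, 1 ≤ m ∧ m ≤ t ∧ q i = (m : ℝ)) →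
      δ * (t : ℝ) ^ (k + 3) ≤ (P.card : ℝ) →
      (∀ p ∈ P, δ ^ 2 / (32832 * 9 ^ k) * (P.card : ℝ) ^ (2 / ((k : ℝ) + 3)) ≤
        (((P.erase p).image (fun q => dist p q)).card : ℝ)) ∧
      δ ^ 2 / (32832 * 9 ^ k) * (P.card : ℝ) ^ (2 / ((k : ℝ) + 3)) ≤
        ((P.offDiag.image (fun pq => dist pq.1 pq.2)).card : ℝ)) ∧
    (∀ (d : ℕ), 2 ≤ d → ∀ P : Finset (EuclideanSpace ℝ (Fin d)), 2 ≤ P.card →
      ∀ K : ℝ, 1 ≤ K →
      (∀ (v : EuclideanSpace ℝ (Fin d)) (c : ℝ), v ≠ 0 →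
        ((P.filter (fun p => inner ℝ v p = c)).card : ℝ) ≤
          K * (P.card : ℝ) ^ (1 - 2 / (d : ℝ))) →
      (P.card : ℝ) ^ (2 / (d : ℝ)) / (4 * K) ≤
        ((P.offDiag.image (fun pq => dist pq.1 pq.2)).card : ℝ)) := by
  refine ⟨?_, ?_⟩
  · intro k t ht δ hδ hδ1 P hn hgrid hdense
    have hgrid' : ∀ q ∈ P, ∀ i, ∃ m : ℕ, m ≤ t ∧ q i = (m : ℝ) := by
      intro q hq i
      obtain ⟨m, _, h2, h3⟩ := hgrid q hq i
      exact ⟨m, h2, h3⟩
    have hpin : ∀ p ∈ P, δ ^ 2 / (32832 * 9 ^ k) * (P.card : ℝ) ^ (2 / ((k : ℝ) + 3)) ≤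
        (((P.erase p).image (fun q => dist p q)).card : ℝ) :=
      fun p hp => Vale.Agent.Lib.P054.grid_dense k t ht δ hδ hδ1 P hn hgrid' hdense p hp
    refine ⟨hpin, ?_⟩
    have hne : P.Nonempty := Finset.card_pos.mp (by omega)
    obtain ⟨p, hp⟩ := hne
    refine le_trans (hpin p hp) ?_
    exact_mod_cast Vale.Agent.Lib.P054.pinned_card_le_distances P p hp
  · intro d hd P hn K hK hH
    exact Vale.Agent.Lib.P054.distances_of_sparse_hyperplanes hd P hn K hK hH

end Vale.Agent.Results.P054.GridAndSparseHyperplanes
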