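import Vale.Agent.Lib.P054.Hyperplane

/-!
# P054: few points on every hyperplane forces many pinned distances

If every affine hyperplane of `ℝᵈ` contains at most `h` points of the finite set `P`, then some
point `p` of `P` has at least `(|P| - 1) / (h + 1)` distinct distances to the other points.
-/

namespace Vale.Agent.Results.P054.HyperplanePinned

theorem result (d : ℕ) (P : Finset (EuclideanSpace ℝ (Fin d))) (hP : P.Nonempty) (h : ℕ)
    (hH : ∀ (v : EuclideanSpace ℝ (Fin d)) (c : ℝ), v ≠ 0 →
      (P.filter (fun p => inner ℝ v p = c)).card ≤ h) :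
    ∃ p ∈ P, P.card - 1 ≤ (h + 1) * ((P.erase p).image (fun q => dist p q)).card :=
  Vale.Agent.Lib.P054.pinned_of_hyperplane_le P hP h hH

end Vale.Agent.Results.P054.HyperplanePinned
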