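import Vale.Agent.Lib.P054.Hyperplane

/-!
# P054: the conjectured bound for point sets with few points on every hyperplane

Let `d ≥ 2`, `K ≥ 1` and let `P ⊆ ℝᵈ` be a set of `n ≥ 2` points such that every affine
hyperplane contains at most `K n^(1 - 2/d)` points of `P`.  Then `P` determines at least
`n^(2/d) / (4K)` distinct distances.
-/

namespace Vale.Agent.Results.P054.SparseHyperplanes

theorem result (d : ℕ) (hd : 2 ≤ d) (P : Finset (EuclideanSpace ℝ (Fin d)))
    (hn : 2 ≤ P.card) (K : ℝ) (hK : 1 ≤ K)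
    (hH : ∀ (v : EuclideanSpace ℝ (Fin d)) (c : ℝ), v ≠ 0 →
      ((P.filter (fun p => inner ℝ v p = c)).card : ℝ) ≤ K * (P.card : ℝ) ^ (1 - 2 / (d : ℝ))) :
    (P.card : ℝ) ^ (2 / (d : ℝ)) / (4 * K) ≤
      ((P.offDiag.image (fun pq => dist pq.1 pq.2)).card : ℝ) :=
  Vale.Agent.Lib.P054.distances_of_sparse_hyperplanes hd P hn K hK hH

end Vale.Agent.Results.P054.SparseHyperplanes
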